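import Vale.Agent.P181.MN.Defs

set_option autoImplicit false

/-!
# P181, MN, (N4): the first long gap below row three
-/

namespace Vale.Agent.P181.MN.H648

open Vale.Agent.P181.T4 (ex)

theorem ex_lt {n : ℕ} (lam : Fin n → ℕ) {i : ℕ} (h : i < n) : ex lam i = lam ⟨i, h⟩ := by
  unfold ex
  rw [dif_pos h]

theorem ex_ge {n : ℕ} (lam : Fin n → ℕ) {i : ℕ} (h : n ≤ i) : ex lam i = 0 := by
  unfold ex
  rw [dif_neg (by omega)]

theorem sum_ex_le {n : ℕ} (lam : Fin n → ℕ) (N : ℕ) :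
    ∑ i ∈ Finset.range N, ex lam i ≤ ∑ i, lam i := by
  have h1 : ∑ i ∈ Finset.range N, ex lam i ≤ ∑ i ∈ Finset.range (n + N), ex lam i :=
    Finset.sum_le_sum_of_subset (by
      intro x hx
      rw [Finset.mem_range] at hx ⊢
      omega)
  have h2 : ∑ i ∈ Finset.range (n + N), ex lam i = ∑ i ∈ Finset.range n, ex lam i := by
    rw [Finset.sum_range_add]
    have : ∑ x ∈ Finset.range N, ex lam (n + x) = 0 :=
      Finset.sum_eq_zero fun x _ => ex_ge lam (by omega)
    rw [this, add_zero]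
  have h3 : ∑ i ∈ Finset.range n, ex lam i = ∑ i, lam i := by
    rw [Finset.sum_range]
    exact Finset.sum_congr rfl fun i _ => ex_lt lam i.2
  rw [h2, h3] at h1
  exact h1

/-- in natural numbers: a long gap exists, or the sum is large -/
theorem gap_or {n : ℕ} (lam : Fin n → ℕ) (M g : ℕ) :
    (∃ m, 3 ≤ m ∧ m ≤ M ∧ ex lam m + 2 * g ≤ ex lam (m - 1)) ∨
      ∀ j, 2 + j ≤ M → ex lam 2 ≤ ex lam (2 + j) + 2 * g * j := by
  by_cases h : ∃ m, 3 ≤ m ∧ m ≤ M ∧ ex lam m + 2 * g ≤ ex lam (m - 1)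
  · exact Or.inl h
  · right
    push Not at h
    intro j
    induction j with
    | zero => intro _; simp
    | succ j ih =>
      intro hj
      have h1 := ih (by omega)
      have h2 := h (2 + (j + 1)) (by omega) hj
      have e : 2 + (j + 1) - 1 = 2 + j := by omega
      rw [e] at h2
      have h3 : 2 * g * (j + 1) = 2 * g * j + 2 * g := by ring
      omega

/-- **(N4)** -/
theorem gapN : GapN := by
  intro K hK
  have hK0 : (0 : ℝ) < 8 * K := by
    have : (20 : ℝ) ≤ K := by exact_mod_cast hK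
    linarith
  refine ⟨1 / (8 * K), 2 ^ (8 * K), by positivity, ?_⟩
  intro a b n lam ha hab hb hn hanti hsum h2
  have ha1 : 1 ≤ a := (Nat.one_le_two_pow).trans ha
  have haR : (0 : ℝ) < a := by exact_mod_cast ha1
  obtain ⟨t, ht⟩ : ∃ t : ℝ, t = (a : ℝ) ^ (1 / (8 * K) : ℝ) := ⟨_, rfl⟩
  have htpos : 0 < t := by rw [ht]; positivity
  have htK : t ^ (8 * K) = a := by
    rw [ht, ← Real.rpow_natCast, ← Real.rpow_mul haR.le]
    have : (1 / (8 * K) : ℝ) * ((8 * K : ℕ) : ℝ) = 1 := by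
      push_cast
      field_simp
    rw [this, Real.rpow_one]
  have ht2 : 2 ≤ t := by
    by_contra hc
    push Not at hc
    have h1 : t ^ (8 * K) < 2 ^ (8 * K) := pow_lt_pow_left₀ hc htpos.le (by omega)
    rw [htK] at h1
    have h3 : ((2 ^ (8 * K) : ℕ) : ℝ) ≤ a := by exact_mod_cast ha
    push_cast at h3
    linarith
  have hbt : (b : ℝ) ≤ a * t := by
    rw [Real.rpow_add haR, Real.rpow_one, ← ht] at hb
    exact hb
  have h2t : (a : ℝ) ^ 2 / t ≤ ex lam 2 := by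
    rw [Real.rpow_sub haR, ← ht] at h2
    have e : (a : ℝ) ^ (2 : ℝ) = (a : ℝ) ^ 2 := by norm_cast
    rw [e] at h2
    exact h2
  have ht1 : 1 ≤ t := by linarith
  have h8 : t ^ 8 ≤ a := by
    rw [← htK]
    exact pow_le_pow_right₀ ht1 (by omega)
  -- the numbers
  obtain ⟨g, hg⟩ : ∃ g : ℕ, g = ⌈(a : ℝ) ^ 2 / t ^ 8⌉₊ := ⟨_, rfl⟩
  have hg1 : (a : ℝ) ^ 2 / t ^ 8 ≤ g := by rw [hg]; exact Nat.le_ceil _
  have hg2 : (g : ℝ) ≤ 2 * ((a : ℝ) ^ 2 / t ^ 8) := by
    have h1 : (g : ℝ) < (a : ℝ) ^ 2 / t ^ 8 + 1 := by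
      rw [hg]
      exact Nat.ceil_lt_add_one (by positivity)
    have h3 : 1 ≤ (a : ℝ) ^ 2 / t ^ 8 := by
      rw [le_div_iff₀ (by positivity), one_mul]
      have : (1 : ℝ) ≤ a := by exact_mod_cast ha1
      nlinarith
    linarith
  obtain ⟨M, hM⟩ : ∃ M : ℕ, M = ⌊t ^ 4⌋₊ := ⟨_, rfl⟩
  have hM1 : (M : ℝ) ≤ t ^ 4 := by rw [hM]; exact Nat.floor_le (by positivity)
  have hM2 : t ^ 4 < M + 1 := by rw [hM]; exact Nat.lt_floor_add_one _
  have h16 : (16 : ℝ) ≤ t ^ 4 := by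
    calc (16 : ℝ) = 2 ^ 4 := by norm_num
      _ ≤ t ^ 4 := pow_le_pow_left₀ (by norm_num) ht2 4
  have hM3 : 3 ≤ M := by
    have : (15 : ℝ) < M := by linarith
    have : 15 < M := by exact_mod_cast this
    omega
  refine ⟨?_, ?_⟩
  · have h1 : (b : ℝ) ^ K ≤ (a : ℝ) ^ (K + 1) := by
      calc (b : ℝ) ^ K ≤ (a * t) ^ K := pow_le_pow_left₀ (by positivity) hbt K
        _ = (a : ℝ) ^ K * t ^ K := by rw [mul_pow]
        _ ≤ (a : ℝ) ^ K * t ^ (8 * K) := by
            apply mul_le_mul_of_nonneg_left _ (by positivity)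
            exact pow_le_pow_right₀ ht1 (by omega)
        _ = (a : ℝ) ^ (K + 1) := by rw [htK, pow_succ]
    exact_mod_cast h1
  rcases gap_or lam M g with ⟨m, hm1, hm2, hm3⟩ | hall
  · have hgpos : 0 < g := by
      have h1 : (0 : ℝ) < g := lt_of_lt_of_le (by positivity) hg1
      exact_mod_cast h1
    have hmn : m - 1 < n := by
      by_contra hc
      have := ex_ge lam (show n ≤ m - 1 by omega)
      omega
    refine ⟨m, g, hm1, by omega, ?_, ?_, ?_⟩
    · have h1 : (m : ℝ) ^ 20 ≤ b := by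
        have h3 : (m : ℝ) ≤ t ^ 4 := by
          have : (m : ℝ) ≤ M := by exact_mod_cast hm2
          linarith
        calc (m : ℝ) ^ 20 ≤ (t ^ 4) ^ 20 := pow_le_pow_left₀ (by positivity) h3 20
          _ = t ^ 80 := by rw [← pow_mul]
          _ ≤ t ^ (8 * K) := pow_le_pow_right₀ ht1 (by omega)
          _ = a := htK
          _ ≤ b := by exact_mod_cast hab
      exact_mod_cast h1
    · have h1 : (a : ℝ) ^ (2 * K - 1) ≤ (g : ℝ) ^ K := by
        calc (a : ℝ) ^ (2 * K - 1) = ((a : ℝ) ^ 2 / t ^ 8) ^ K := by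
              rw [div_pow, ← pow_mul, ← pow_mul, htK, eq_div_iff haR.ne', ← pow_succ]
              congr 1
              omega
          _ ≤ (g : ℝ) ^ K := pow_le_pow_left₀ (by positivity) hg1 K
      exact_mod_cast h1
    · intro i hi
      rw [ex_lt lam hmn] at hm3
      exact hm3.trans (hanti (show i ≤ ⟨m - 1, hmn⟩ from (show (i : ℕ) ≤ m - 1 by omega)))
  · exfalso
    obtain ⟨J, hJ⟩ : ∃ J, J + 1 = M := ⟨M - 1, by omega⟩
    -- the sum
    have h3 : J * ex lam 2 ≤ a * b + J * (2 * g * J) := by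
      have h4 : ∑ j ∈ Finset.range J, ex lam 2 ≤
          ∑ j ∈ Finset.range J, (ex lam (2 + j) + 2 * g * J) := by
        apply Finset.sum_le_sum
        intro j hj
        rw [Finset.mem_range] at hj
        have h5 := hall j (by omega)
        have h6 : 2 * g * j ≤ 2 * g * J := Nat.mul_le_mul_left _ hj.le
        omega
      have h5 : ∑ j ∈ Finset.range J, ex lam (2 + j) ≤ a * b := by
        have h6 := sum_ex_le lam (2 + J)
        rw [Finset.sum_range_add, hsum] at h6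
        omega
      rw [Finset.sum_add_distrib] at h4
      simp only [Finset.sum_const, Finset.card_range, smul_eq_mul] at h4
      omega
    have h3R : (J : ℝ) * ex lam 2 ≤ a * b + J * (2 * g * J) := by exact_mod_cast h3
    have hJ1 : (J : ℝ) ≤ t ^ 4 := by
      have : (J : ℝ) + 1 = M := by exact_mod_cast hJ
      linarith
    have hJ2 : t ^ 4 - 2 < J := by
      have : (J : ℝ) + 1 = M := by exact_mod_cast hJ
      linarith
    have hJ0 : (0 : ℝ) ≤ J := Nat.cast_nonneg J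
    -- `2 g J ≤ a² / (2 t)`
    have h4 : 2 * (g : ℝ) * J ≤ (a : ℝ) ^ 2 / (2 * t) := by
      calc 2 * (g : ℝ) * J ≤ 2 * (2 * ((a : ℝ) ^ 2 / t ^ 8)) * t ^ 4 := by
            apply mul_le_mul _ hJ1 hJ0 (by positivity)
            linarith
        _ = (a : ℝ) ^ 2 * (4 / t ^ 4) := by
            have e : t ^ 8 = t ^ 4 * t ^ 4 := by ring
            rw [e]
            field_simp
            ring
        _ ≤ (a : ℝ) ^ 2 * (1 / (2 * t)) := by
            apply mul_le_mul_of_nonneg_left _ (by positivity)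
            rw [div_le_div_iff₀ (by positivity) (by positivity)]
            have e : t ^ 4 = t ^ 3 * t := by ring
            have h8' : (8 : ℝ) ≤ t ^ 3 := by
              calc (8 : ℝ) = 2 ^ 3 := by norm_num
                _ ≤ t ^ 3 := pow_le_pow_left₀ (by norm_num) ht2 3
            nlinarith
        _ = (a : ℝ) ^ 2 / (2 * t) := by ring
    have h5 : (J : ℝ) * ((a : ℝ) ^ 2 / (2 * t)) ≤ a * b := by
      have h6 : (J : ℝ) * ((a : ℝ) ^ 2 / t) ≤ J * ex lam 2 := mul_le_mul_of_nonneg_left h2t hJ0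
      have h7 : (J : ℝ) * (2 * g * J) ≤ J * ((a : ℝ) ^ 2 / (2 * t)) :=
        mul_le_mul_of_nonneg_left h4 hJ0
      have e : (a : ℝ) ^ 2 / t = (a : ℝ) ^ 2 / (2 * t) + (a : ℝ) ^ 2 / (2 * t) := by
        field_simp
        ring
      rw [e, mul_add] at h6
      linarith
    have h6 : (J : ℝ) * ((a : ℝ) ^ 2 / (2 * t)) ≤ (a : ℝ) ^ 2 * t := by
      have h7 : (a : ℝ) * b ≤ a * (a * t) := mul_le_mul_of_nonneg_left hbt haR.le
      calc (J : ℝ) * ((a : ℝ) ^ 2 / (2 * t)) ≤ a * b := h5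
        _ ≤ a * (a * t) := h7
        _ = (a : ℝ) ^ 2 * t := by ring
    have h7 : (J : ℝ) ≤ 2 * t ^ 2 := by
      have ha2 : (0 : ℝ) < (a : ℝ) ^ 2 := by positivity
      have e : (J : ℝ) * ((a : ℝ) ^ 2 / (2 * t)) = (a : ℝ) ^ 2 * (J / (2 * t)) := by ring
      rw [e] at h6
      have h8' := le_of_mul_le_mul_left h6 ha2
      rw [div_le_iff₀ (by positivity)] at h8'
      calc (J : ℝ) ≤ t * (2 * t) := h8'
        _ = 2 * t ^ 2 := by ring
    have h9 : (4 : ℝ) ≤ t ^ 2 := by nlinarith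
    have h10 : t ^ 4 = t ^ 2 * t ^ 2 := by ring
    nlinarith

end Vale.Agent.P181.MN.H648
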